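import Vale.Agent.P264.B.Run
import Vale.Agent.P264.B.D.Tl
import Vale.Agent.P264.B.D.A00
import Vale.Agent.P264.B.D.A01
import Vale.Agent.P264.B.D.A02
import Vale.Agent.P264.B.D.A03
import Vale.Agent.P264.B.D.A04
import Vale.Agent.P264.B.D.A05
import Vale.Agent.P264.B.D.A06
import Vale.Agent.P264.B.D.A07
import Vale.Agent.P264.B.D.A08
import Vale.Agent.P264.B.D.A09
import Vale.Agent.P264.B.D.A10
import Vale.Agent.P264.B.D.A11
import Vale.Agent.P264.B.D.A12
import Vale.Agent.P264.B.D.A13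
import Vale.Agent.P264.B.D.A14
import Vale.Agent.P264.B.D.A15

/-! Block B: the certificate exists. -/

namespace Vale.Agent.P264.B

theorem m6 : chkMatch p6 p7 = true := by decide +kernel

theorem m13 : chkMatch p13 p14 = true := by decide +kernel

theorem m20 : chkMatch p20 p21 = true := by decide +kernel

theorem m27 : chkMatch p27 p28 = true := by decide +kernel

theorem m34 : chkMatch p34 p35 = true := by decide +kernel

theorem m41 : chkMatch p41 p42 = true := by decide +kernel

theorem m48 : chkMatch p48 p49 = true := by decide +kernel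

theorem m55 : chkMatch p55 p56 = true := by decide +kernel

theorem m62 : chkMatch p62 p63 = true := by decide +kernel

theorem m69 : chkMatch p69 p70 = true := by decide +kernel

theorem m76 : chkMatch p76 p77 = true := by decide +kernel

theorem m83 : chkMatch p83 p84 = true := by decide +kernel

theorem m90 : chkMatch p90 p91 = true := by decide +kernel

theorem m97 : chkMatch p97 p98 = true := by decide +kernel

theorem m104 : chkMatch p104 p105 = true := by decide +kernel

theorem mtl : chkMatchT p105 tl = true := by decide +kernel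

noncomputable def j105 : ℤ × ℤ × ℤ := p105.JJ
theorem a105 : Acc p105 j105 := Acc.last c105 (by decide +kernel) ctl mtl

noncomputable def j104 : ℤ × ℤ × ℤ := addJ p104.JJ j105
theorem a104 : Acc p104 j104 := Acc.step c104 (by decide +kernel) m104 a105

noncomputable def j103 : ℤ × ℤ × ℤ := addJ p103.JJ j104
theorem a103 : Acc p103 j103 := Acc.step c103 (by decide +kernel) m103 a104

noncomputable def j102 : ℤ × ℤ × ℤ := addJ p102.JJ j103
theorem a102 : Acc p102 j102 := Acc.step c102 (by decide +kernel) m102 a103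

noncomputable def j101 : ℤ × ℤ × ℤ := addJ p101.JJ j102
theorem a101 : Acc p101 j101 := Acc.step c101 (by decide +kernel) m101 a102

noncomputable def j100 : ℤ × ℤ × ℤ := addJ p100.JJ j101
theorem a100 : Acc p100 j100 := Acc.step c100 (by decide +kernel) m100 a101

noncomputable def j99 : ℤ × ℤ × ℤ := addJ p99.JJ j100
theorem a99 : Acc p99 j99 := Acc.step c99 (by decide +kernel) m99 a100

noncomputable def j98 : ℤ × ℤ × ℤ := addJ p98.JJ j99
theorem a98 : Acc p98 j98 := Acc.step c98 (by decide +kernel) m98 a99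

noncomputable def j97 : ℤ × ℤ × ℤ := addJ p97.JJ j98
theorem a97 : Acc p97 j97 := Acc.step c97 (by decide +kernel) m97 a98

noncomputable def j96 : ℤ × ℤ × ℤ := addJ p96.JJ j97
theorem a96 : Acc p96 j96 := Acc.step c96 (by decide +kernel) m96 a97

noncomputable def j95 : ℤ × ℤ × ℤ := addJ p95.JJ j96
theorem a95 : Acc p95 j95 := Acc.step c95 (by decide +kernel) m95 a96

noncomputable def j94 : ℤ × ℤ × ℤ := addJ p94.JJ j95
theorem a94 : Acc p94 j94 := Acc.step c94 (by decide +kernel) m94 a95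

noncomputable def j93 : ℤ × ℤ × ℤ := addJ p93.JJ j94
theorem a93 : Acc p93 j93 := Acc.step c93 (by decide +kernel) m93 a94

noncomputable def j92 : ℤ × ℤ × ℤ := addJ p92.JJ j93
theorem a92 : Acc p92 j92 := Acc.step c92 (by decide +kernel) m92 a93

noncomputable def j91 : ℤ × ℤ × ℤ := addJ p91.JJ j92
theorem a91 : Acc p91 j91 := Acc.step c91 (by decide +kernel) m91 a92

noncomputable def j90 : ℤ × ℤ × ℤ := addJ p90.JJ j91
theorem a90 : Acc p90 j90 := Acc.step c90 (by decide +kernel) m90 a91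

noncomputable def j89 : ℤ × ℤ × ℤ := addJ p89.JJ j90
theorem a89 : Acc p89 j89 := Acc.step c89 (by decide +kernel) m89 a90

noncomputable def j88 : ℤ × ℤ × ℤ := addJ p88.JJ j89
theorem a88 : Acc p88 j88 := Acc.step c88 (by decide +kernel) m88 a89

noncomputable def j87 : ℤ × ℤ × ℤ := addJ p87.JJ j88
theorem a87 : Acc p87 j87 := Acc.step c87 (by decide +kernel) m87 a88

noncomputable def j86 : ℤ × ℤ × ℤ := addJ p86.JJ j87
theorem a86 : Acc p86 j86 := Acc.step c86 (by decide +kernel) m86 a87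

noncomputable def j85 : ℤ × ℤ × ℤ := addJ p85.JJ j86
theorem a85 : Acc p85 j85 := Acc.step c85 (by decide +kernel) m85 a86

noncomputable def j84 : ℤ × ℤ × ℤ := addJ p84.JJ j85
theorem a84 : Acc p84 j84 := Acc.step c84 (by decide +kernel) m84 a85

noncomputable def j83 : ℤ × ℤ × ℤ := addJ p83.JJ j84
theorem a83 : Acc p83 j83 := Acc.step c83 (by decide +kernel) m83 a84

noncomputable def j82 : ℤ × ℤ × ℤ := addJ p82.JJ j83
theorem a82 : Acc p82 j82 := Acc.step c82 (by decide +kernel) m82 a83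

noncomputable def j81 : ℤ × ℤ × ℤ := addJ p81.JJ j82
theorem a81 : Acc p81 j81 := Acc.step c81 (by decide +kernel) m81 a82

noncomputable def j80 : ℤ × ℤ × ℤ := addJ p80.JJ j81
theorem a80 : Acc p80 j80 := Acc.step c80 (by decide +kernel) m80 a81

noncomputable def j79 : ℤ × ℤ × ℤ := addJ p79.JJ j80
theorem a79 : Acc p79 j79 := Acc.step c79 (by decide +kernel) m79 a80

noncomputable def j78 : ℤ × ℤ × ℤ := addJ p78.JJ j79
theorem a78 : Acc p78 j78 := Acc.step c78 (by decide +kernel) m78 a79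

noncomputable def j77 : ℤ × ℤ × ℤ := addJ p77.JJ j78
theorem a77 : Acc p77 j77 := Acc.step c77 (by decide +kernel) m77 a78

noncomputable def j76 : ℤ × ℤ × ℤ := addJ p76.JJ j77
theorem a76 : Acc p76 j76 := Acc.step c76 (by decide +kernel) m76 a77

noncomputable def j75 : ℤ × ℤ × ℤ := addJ p75.JJ j76
theorem a75 : Acc p75 j75 := Acc.step c75 (by decide +kernel) m75 a76

noncomputable def j74 : ℤ × ℤ × ℤ := addJ p74.JJ j75
theorem a74 : Acc p74 j74 := Acc.step c74 (by decide +kernel) m74 a75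

noncomputable def j73 : ℤ × ℤ × ℤ := addJ p73.JJ j74
theorem a73 : Acc p73 j73 := Acc.step c73 (by decide +kernel) m73 a74

noncomputable def j72 : ℤ × ℤ × ℤ := addJ p72.JJ j73
theorem a72 : Acc p72 j72 := Acc.step c72 (by decide +kernel) m72 a73

noncomputable def j71 : ℤ × ℤ × ℤ := addJ p71.JJ j72
theorem a71 : Acc p71 j71 := Acc.step c71 (by decide +kernel) m71 a72

noncomputable def j70 : ℤ × ℤ × ℤ := addJ p70.JJ j71
theorem a70 : Acc p70 j70 := Acc.step c70 (by decide +kernel) m70 a71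

noncomputable def j69 : ℤ × ℤ × ℤ := addJ p69.JJ j70
theorem a69 : Acc p69 j69 := Acc.step c69 (by decide +kernel) m69 a70

noncomputable def j68 : ℤ × ℤ × ℤ := addJ p68.JJ j69
theorem a68 : Acc p68 j68 := Acc.step c68 (by decide +kernel) m68 a69

noncomputable def j67 : ℤ × ℤ × ℤ := addJ p67.JJ j68
theorem a67 : Acc p67 j67 := Acc.step c67 (by decide +kernel) m67 a68

noncomputable def j66 : ℤ × ℤ × ℤ := addJ p66.JJ j67
theorem a66 : Acc p66 j66 := Acc.step c66 (by decide +kernel) m66 a67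

noncomputable def j65 : ℤ × ℤ × ℤ := addJ p65.JJ j66
theorem a65 : Acc p65 j65 := Acc.step c65 (by decide +kernel) m65 a66

noncomputable def j64 : ℤ × ℤ × ℤ := addJ p64.JJ j65
theorem a64 : Acc p64 j64 := Acc.step c64 (by decide +kernel) m64 a65

noncomputable def j63 : ℤ × ℤ × ℤ := addJ p63.JJ j64
theorem a63 : Acc p63 j63 := Acc.step c63 (by decide +kernel) m63 a64

noncomputable def j62 : ℤ × ℤ × ℤ := addJ p62.JJ j63
theorem a62 : Acc p62 j62 := Acc.step c62 (by decide +kernel) m62 a63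

noncomputable def j61 : ℤ × ℤ × ℤ := addJ p61.JJ j62
theorem a61 : Acc p61 j61 := Acc.step c61 (by decide +kernel) m61 a62

noncomputable def j60 : ℤ × ℤ × ℤ := addJ p60.JJ j61
theorem a60 : Acc p60 j60 := Acc.step c60 (by decide +kernel) m60 a61

noncomputable def j59 : ℤ × ℤ × ℤ := addJ p59.JJ j60
theorem a59 : Acc p59 j59 := Acc.step c59 (by decide +kernel) m59 a60

noncomputable def j58 : ℤ × ℤ × ℤ := addJ p58.JJ j59
theorem a58 : Acc p58 j58 := Acc.step c58 (by decide +kernel) m58 a59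

noncomputable def j57 : ℤ × ℤ × ℤ := addJ p57.JJ j58
theorem a57 : Acc p57 j57 := Acc.step c57 (by decide +kernel) m57 a58

noncomputable def j56 : ℤ × ℤ × ℤ := addJ p56.JJ j57
theorem a56 : Acc p56 j56 := Acc.step c56 (by decide +kernel) m56 a57

noncomputable def j55 : ℤ × ℤ × ℤ := addJ p55.JJ j56
theorem a55 : Acc p55 j55 := Acc.step c55 (by decide +kernel) m55 a56

noncomputable def j54 : ℤ × ℤ × ℤ := addJ p54.JJ j55
theorem a54 : Acc p54 j54 := Acc.step c54 (by decide +kernel) m54 a55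

noncomputable def j53 : ℤ × ℤ × ℤ := addJ p53.JJ j54
theorem a53 : Acc p53 j53 := Acc.step c53 (by decide +kernel) m53 a54

noncomputable def j52 : ℤ × ℤ × ℤ := addJ p52.JJ j53
theorem a52 : Acc p52 j52 := Acc.step c52 (by decide +kernel) m52 a53

noncomputable def j51 : ℤ × ℤ × ℤ := addJ p51.JJ j52
theorem a51 : Acc p51 j51 := Acc.step c51 (by decide +kernel) m51 a52

noncomputable def j50 : ℤ × ℤ × ℤ := addJ p50.JJ j51
theorem a50 : Acc p50 j50 := Acc.step c50 (by decide +kernel) m50 a51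

noncomputable def j49 : ℤ × ℤ × ℤ := addJ p49.JJ j50
theorem a49 : Acc p49 j49 := Acc.step c49 (by decide +kernel) m49 a50

noncomputable def j48 : ℤ × ℤ × ℤ := addJ p48.JJ j49
theorem a48 : Acc p48 j48 := Acc.step c48 (by decide +kernel) m48 a49

noncomputable def j47 : ℤ × ℤ × ℤ := addJ p47.JJ j48
theorem a47 : Acc p47 j47 := Acc.step c47 (by decide +kernel) m47 a48

noncomputable def j46 : ℤ × ℤ × ℤ := addJ p46.JJ j47
theorem a46 : Acc p46 j46 := Acc.step c46 (by decide +kernel) m46 a47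

noncomputable def j45 : ℤ × ℤ × ℤ := addJ p45.JJ j46
theorem a45 : Acc p45 j45 := Acc.step c45 (by decide +kernel) m45 a46

noncomputable def j44 : ℤ × ℤ × ℤ := addJ p44.JJ j45
theorem a44 : Acc p44 j44 := Acc.step c44 (by decide +kernel) m44 a45

noncomputable def j43 : ℤ × ℤ × ℤ := addJ p43.JJ j44
theorem a43 : Acc p43 j43 := Acc.step c43 (by decide +kernel) m43 a44

noncomputable def j42 : ℤ × ℤ × ℤ := addJ p42.JJ j43
theorem a42 : Acc p42 j42 := Acc.step c42 (by decide +kernel) m42 a43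

noncomputable def j41 : ℤ × ℤ × ℤ := addJ p41.JJ j42
theorem a41 : Acc p41 j41 := Acc.step c41 (by decide +kernel) m41 a42

noncomputable def j40 : ℤ × ℤ × ℤ := addJ p40.JJ j41
theorem a40 : Acc p40 j40 := Acc.step c40 (by decide +kernel) m40 a41

noncomputable def j39 : ℤ × ℤ × ℤ := addJ p39.JJ j40
theorem a39 : Acc p39 j39 := Acc.step c39 (by decide +kernel) m39 a40

noncomputable def j38 : ℤ × ℤ × ℤ := addJ p38.JJ j39
theorem a38 : Acc p38 j38 := Acc.step c38 (by decide +kernel) m38 a39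

noncomputable def j37 : ℤ × ℤ × ℤ := addJ p37.JJ j38
theorem a37 : Acc p37 j37 := Acc.step c37 (by decide +kernel) m37 a38

noncomputable def j36 : ℤ × ℤ × ℤ := addJ p36.JJ j37
theorem a36 : Acc p36 j36 := Acc.step c36 (by decide +kernel) m36 a37

noncomputable def j35 : ℤ × ℤ × ℤ := addJ p35.JJ j36
theorem a35 : Acc p35 j35 := Acc.step c35 (by decide +kernel) m35 a36

noncomputable def j34 : ℤ × ℤ × ℤ := addJ p34.JJ j35
theorem a34 : Acc p34 j34 := Acc.step c34 (by decide +kernel) m34 a35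

noncomputable def j33 : ℤ × ℤ × ℤ := addJ p33.JJ j34
theorem a33 : Acc p33 j33 := Acc.step c33 (by decide +kernel) m33 a34

noncomputable def j32 : ℤ × ℤ × ℤ := addJ p32.JJ j33
theorem a32 : Acc p32 j32 := Acc.step c32 (by decide +kernel) m32 a33

noncomputable def j31 : ℤ × ℤ × ℤ := addJ p31.JJ j32
theorem a31 : Acc p31 j31 := Acc.step c31 (by decide +kernel) m31 a32

noncomputable def j30 : ℤ × ℤ × ℤ := addJ p30.JJ j31
theorem a30 : Acc p30 j30 := Acc.step c30 (by decide +kernel) m30 a31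

noncomputable def j29 : ℤ × ℤ × ℤ := addJ p29.JJ j30
theorem a29 : Acc p29 j29 := Acc.step c29 (by decide +kernel) m29 a30

noncomputable def j28 : ℤ × ℤ × ℤ := addJ p28.JJ j29
theorem a28 : Acc p28 j28 := Acc.step c28 (by decide +kernel) m28 a29

noncomputable def j27 : ℤ × ℤ × ℤ := addJ p27.JJ j28
theorem a27 : Acc p27 j27 := Acc.step c27 (by decide +kernel) m27 a28

noncomputable def j26 : ℤ × ℤ × ℤ := addJ p26.JJ j27
theorem a26 : Acc p26 j26 := Acc.step c26 (by decide +kernel) m26 a27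

noncomputable def j25 : ℤ × ℤ × ℤ := addJ p25.JJ j26
theorem a25 : Acc p25 j25 := Acc.step c25 (by decide +kernel) m25 a26

noncomputable def j24 : ℤ × ℤ × ℤ := addJ p24.JJ j25
theorem a24 : Acc p24 j24 := Acc.step c24 (by decide +kernel) m24 a25

noncomputable def j23 : ℤ × ℤ × ℤ := addJ p23.JJ j24
theorem a23 : Acc p23 j23 := Acc.step c23 (by decide +kernel) m23 a24

noncomputable def j22 : ℤ × ℤ × ℤ := addJ p22.JJ j23
theorem a22 : Acc p22 j22 := Acc.step c22 (by decide +kernel) m22 a23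

noncomputable def j21 : ℤ × ℤ × ℤ := addJ p21.JJ j22
theorem a21 : Acc p21 j21 := Acc.step c21 (by decide +kernel) m21 a22

noncomputable def j20 : ℤ × ℤ × ℤ := addJ p20.JJ j21
theorem a20 : Acc p20 j20 := Acc.step c20 (by decide +kernel) m20 a21

noncomputable def j19 : ℤ × ℤ × ℤ := addJ p19.JJ j20
theorem a19 : Acc p19 j19 := Acc.step c19 (by decide +kernel) m19 a20

noncomputable def j18 : ℤ × ℤ × ℤ := addJ p18.JJ j19
theorem a18 : Acc p18 j18 := Acc.step c18 (by decide +kernel) m18 a19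

noncomputable def j17 : ℤ × ℤ × ℤ := addJ p17.JJ j18
theorem a17 : Acc p17 j17 := Acc.step c17 (by decide +kernel) m17 a18

noncomputable def j16 : ℤ × ℤ × ℤ := addJ p16.JJ j17
theorem a16 : Acc p16 j16 := Acc.step c16 (by decide +kernel) m16 a17

noncomputable def j15 : ℤ × ℤ × ℤ := addJ p15.JJ j16
theorem a15 : Acc p15 j15 := Acc.step c15 (by decide +kernel) m15 a16

noncomputable def j14 : ℤ × ℤ × ℤ := addJ p14.JJ j15
theorem a14 : Acc p14 j14 := Acc.step c14 (by decide +kernel) m14 a15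

noncomputable def j13 : ℤ × ℤ × ℤ := addJ p13.JJ j14
theorem a13 : Acc p13 j13 := Acc.step c13 (by decide +kernel) m13 a14

noncomputable def j12 : ℤ × ℤ × ℤ := addJ p12.JJ j13
theorem a12 : Acc p12 j12 := Acc.step c12 (by decide +kernel) m12 a13

noncomputable def j11 : ℤ × ℤ × ℤ := addJ p11.JJ j12
theorem a11 : Acc p11 j11 := Acc.step c11 (by decide +kernel) m11 a12

noncomputable def j10 : ℤ × ℤ × ℤ := addJ p10.JJ j11
theorem a10 : Acc p10 j10 := Acc.step c10 (by decide +kernel) m10 a11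

noncomputable def j9 : ℤ × ℤ × ℤ := addJ p9.JJ j10
theorem a9 : Acc p9 j9 := Acc.step c9 (by decide +kernel) m9 a10

noncomputable def j8 : ℤ × ℤ × ℤ := addJ p8.JJ j9
theorem a8 : Acc p8 j8 := Acc.step c8 (by decide +kernel) m8 a9

noncomputable def j7 : ℤ × ℤ × ℤ := addJ p7.JJ j8
theorem a7 : Acc p7 j7 := Acc.step c7 (by decide +kernel) m7 a8

noncomputable def j6 : ℤ × ℤ × ℤ := addJ p6.JJ j7
theorem a6 : Acc p6 j6 := Acc.step c6 (by decide +kernel) m6 a7

noncomputable def j5 : ℤ × ℤ × ℤ := addJ p5.JJ j6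
theorem a5 : Acc p5 j5 := Acc.step c5 (by decide +kernel) m5 a6

noncomputable def j4 : ℤ × ℤ × ℤ := addJ p4.JJ j5
theorem a4 : Acc p4 j4 := Acc.step c4 (by decide +kernel) m4 a5

noncomputable def j3 : ℤ × ℤ × ℤ := addJ p3.JJ j4
theorem a3 : Acc p3 j3 := Acc.step c3 (by decide +kernel) m3 a4

noncomputable def j2 : ℤ × ℤ × ℤ := addJ p2.JJ j3
theorem a2 : Acc p2 j2 := Acc.step c2 (by decide +kernel) m2 a3

noncomputable def j1 : ℤ × ℤ × ℤ := addJ p1.JJ j2
theorem a1 : Acc p1 j1 := Acc.step c1 (by decide +kernel) m1 a2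

noncomputable def j0 : ℤ × ℤ × ℤ := addJ p0.JJ j1
theorem a0 : Acc p0 j0 := Acc.step c0 (by decide +kernel) m0 a1

end Vale.Agent.P264.B

namespace Vale.Agent.P264

theorem blockB' : Nonempty Cert :=
  B.a0.cert (by decide +kernel) (by decide +kernel)

end Vale.Agent.P264
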